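import Mathlib

namespace Vale.Agent.Lib.P012

open Finset

/-- Every `m ≤ N` is a sum of at most `D` distinct divisors of `N`. -/
def Good (N D : ℕ) : Prop :=
  ∀ m ≤ N, ∃ s : Finset ℕ, s ⊆ N.divisors ∧ s.card ≤ D ∧ ∑ d ∈ s, d = m

theorem Good.mono {N D D' : ℕ} (h : Good N D) (hD : D ≤ D') : Good N D' := by
  intro m hm
  obtain ⟨s, hs, hc, hsum⟩ := h m hm
  exact ⟨s, hs, hc.trans hD, hsum⟩

/-- A good number `N ≥ b` gives short Egyptian fractions for `a / b`. -/
theorem egyptian_of_good {N D a b : ℕ} (hG : Good N D) (hbN : b ≤ N) (hab : a < b) :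
    ∃ s : Finset ℕ, (∀ n ∈ s, 2 ≤ n) ∧ s.card ≤ 2 * D ∧ ∑ n ∈ s, (1 : ℚ) / n = a / b := by
  have hb : 0 < b := by omega
  have hN : 0 < N := by omega
  set q := a * N / b with hq
  set r := a * N % b with hr
  have hqr : b * q + r = a * N := Nat.div_add_mod _ _
  have hrb : r < b := Nat.mod_lt _ hb
  have hqN : q < N := by
    rw [hq, Nat.div_lt_iff_lt_mul hb]
    nlinarith
  obtain ⟨s1, hs1, hc1, hsum1⟩ := hG q hqN.le
  obtain ⟨s2, hs2, hc2, hsum2⟩ := hG r (by omega)
  have hpos1 : ∀ d ∈ s1, 0 < d := fun d hd => Nat.pos_of_mem_divisors (hs1 hd)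
  have hpos2 : ∀ d ∈ s2, 0 < d := fun d hd => Nat.pos_of_mem_divisors (hs2 hd)
  have hdvd1 : ∀ d ∈ s1, d ∣ N := fun d hd => Nat.dvd_of_mem_divisors (hs1 hd)
  have hdvd2 : ∀ d ∈ s2, d ∣ N := fun d hd => Nat.dvd_of_mem_divisors (hs2 hd)
  have hle1 : ∀ d ∈ s1, d ≤ q := fun d hd => by
    rw [← hsum1]; exact Finset.single_le_sum (f := fun x => x) (fun _ _ => Nat.zero_le _) hd
  have hle2 : ∀ d ∈ s2, d ≤ r := fun d hd => by
    rw [← hsum2]; exact Finset.single_le_sum (f := fun x => x) (fun _ _ => Nat.zero_le _) hd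
  have hNq : (N : ℚ) ≠ 0 := by exact_mod_cast hN.ne'
  have hbq : (b : ℚ) ≠ 0 := by exact_mod_cast hb.ne'
  have hinj1 : Set.InjOn (fun d => N / d) (s1 : Set ℕ) := by
    intro x hx y hy hxy
    simp only at hxy
    have h1 := Nat.div_mul_cancel (hdvd1 x hx)
    have h2 := Nat.div_mul_cancel (hdvd1 y hy)
    have h3 : 0 < N / x := Nat.div_pos (Nat.le_of_dvd hN (hdvd1 x hx)) (hpos1 x hx)
    rw [← hxy] at h2
    exact Nat.eq_of_mul_eq_mul_left h3 (h1.trans h2.symm)
  have hinj2 : Set.InjOn (fun d => b * (N / d)) (s2 : Set ℕ) := by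
    intro x hx y hy hxy
    simp only at hxy
    have hxy' := Nat.eq_of_mul_eq_mul_left hb hxy
    have h1 := Nat.div_mul_cancel (hdvd2 x hx)
    have h2 := Nat.div_mul_cancel (hdvd2 y hy)
    have h3 : 0 < N / x := Nat.div_pos (Nat.le_of_dvd hN (hdvd2 x hx)) (hpos2 x hx)
    rw [← hxy'] at h2
    exact Nat.eq_of_mul_eq_mul_left h3 (h1.trans h2.symm)
  have hdisj : Disjoint (s1.image (fun d => N / d)) (s2.image (fun d => b * (N / d))) := by
    rw [Finset.disjoint_left]
    intro n hn1 hn2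
    rw [Finset.mem_image] at hn1 hn2
    obtain ⟨d, hd, rfl⟩ := hn1
    obtain ⟨e, he, hen⟩ := hn2
    -- N / d = b * (N / e)  => e = b * d
    have h1 := Nat.div_mul_cancel (hdvd1 d hd)
    have h2 := Nat.div_mul_cancel (hdvd2 e he)
    have h3 : 0 < N / e := Nat.div_pos (Nat.le_of_dvd hN (hdvd2 e he)) (hpos2 e he)
    have h4 : N / e * e = N / e * (b * d) := by
      rw [h2, ← mul_assoc, mul_comm (N / e) b, hen, h1]
    have h5 : e = b * d := Nat.eq_of_mul_eq_mul_left h3 h4
    have h6 := hle2 e he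
    have h7 := hpos1 d hd
    nlinarith
  refine ⟨s1.image (fun d => N / d) ∪ s2.image (fun d => b * (N / d)), ?_, ?_, ?_⟩
  · intro n hn
    rw [Finset.mem_union, Finset.mem_image, Finset.mem_image] at hn
    rcases hn with ⟨d, hd, rfl⟩ | ⟨e, he, rfl⟩
    · rw [Nat.le_div_iff_mul_le (hpos1 d hd)]
      have hdN : d < N := lt_of_le_of_lt (hle1 d hd) hqN
      obtain ⟨k, hk⟩ := hdvd1 d hd
      have : 2 ≤ k := by
        by_contra hlt
        push Not at hlt
        interval_cases k <;> omega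
      rw [hk, mul_comm 2 d]
      exact Nat.mul_le_mul_left _ this
    · have h3 : 0 < N / e := Nat.div_pos (Nat.le_of_dvd hN (hdvd2 e he)) (hpos2 e he)
      have h4 : 0 < e := hpos2 e he
      have h5 := hle2 e he
      nlinarith
  · calc _ ≤ (s1.image (fun d => N / d)).card + (s2.image (fun d => b * (N / d))).card :=
          Finset.card_union_le _ _
      _ ≤ s1.card + s2.card := Nat.add_le_add Finset.card_image_le Finset.card_image_le
      _ ≤ 2 * D := by omega
  · rw [Finset.sum_union hdisj, Finset.sum_image hinj1, Finset.sum_image hinj2]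
    have e1 : ∑ d ∈ s1, (1 : ℚ) / ((N / d : ℕ) : ℚ) = (q : ℚ) / N := by
      rw [← hsum1]
      push_cast
      rw [Finset.sum_div]
      refine Finset.sum_congr rfl fun d hd => ?_
      have hd0 : (d : ℚ) ≠ 0 := by exact_mod_cast (hpos1 d hd).ne'
      rw [Nat.cast_div (hdvd1 d hd) hd0]
      field_simp
    have e2 : ∑ d ∈ s2, (1 : ℚ) / ((b * (N / d) : ℕ) : ℚ) = (r : ℚ) / (b * N) := by
      rw [← hsum2]
      push_cast
      rw [Finset.sum_div]
      refine Finset.sum_congr rfl fun d hd => ?_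
      have hd0 : (d : ℚ) ≠ 0 := by exact_mod_cast (hpos2 d hd).ne'
      rw [Nat.cast_div (hdvd2 d hd) hd0]
      field_simp
    rw [e1, e2]
    have : (b : ℚ) * q + r = a * N := by exact_mod_cast hqr
    field_simp
    linarith

/-- The extension step. -/
theorem Good.extend {N M Q D : ℕ} (hG : Good N D) (hMN : 16 * M ∣ N) (hN : 0 < N)
    (hM : Odd M) (hQ : 1 < Q) (hcop : Nat.Coprime Q (2 * M))
    (hcov : ∀ z : ℕ, ∃ d : Fin 4 → ℕ, (∀ j, d j ∣ M) ∧ (∑ j : Fin 4, 2 ^ (j : ℕ) * d j) ≡ z [MOD Q]) :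
    Good (N * Q) (D + 4) := by
  intro m hm
  have hM0 : 0 < M := hM.pos
  by_cases hmN : m ≤ N
  · obtain ⟨s, hs, hc, hsum⟩ := hG m hmN
    refine ⟨s, hs.trans ?_, by omega, hsum⟩
    exact Nat.divisors_subset_of_dvd (by positivity) (dvd_mul_right _ _)
  · push Not at hmN
    obtain ⟨d, hd, hmod⟩ := hcov m
    have hdle : ∀ j, d j ≤ M := fun j => Nat.le_of_dvd hM0 (hd j)
    have hdpos : ∀ j, 0 < d j := fun j => Nat.pos_of_dvd_of_pos (hd j) hM0
    have hdodd : ∀ j, Odd (d j) := fun j => Odd.of_dvd_nat hM (hd j)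
    have hNle : 16 * M ≤ N := Nat.le_of_dvd hN hMN
    set sd := ∑ j : Fin 4, 2 ^ (j : ℕ) * d j with hsd
    have hsle : sd ≤ 15 * M := by
      rw [hsd, Fin.sum_univ_four]
      have h0 := hdle 0
      have h1 := hdle 1
      have h2 := hdle 2
      have h3 := hdle 3
      simp only [Fin.val_zero, Fin.val_one, Fin.val_two]
      have : ((3 : Fin 4) : ℕ) = 3 := rfl
      rw [this]
      omega
    have hsm : sd ≤ m := by omega
    obtain ⟨m', hm'⟩ : Q ∣ m - sd := (Nat.modEq_iff_dvd' hsm).1 hmod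
    have hmeq : m = sd + Q * m' := by omega
    have hm'N : m' ≤ N := by
      have : Q * m' ≤ Q * N := by
        calc Q * m' ≤ m := by omega
          _ ≤ N * Q := hm
          _ = Q * N := mul_comm _ _
      exact Nat.le_of_mul_le_mul_left this (by omega)
    obtain ⟨s, hs, hc, hsum⟩ := hG m' hm'N
    have hinj : Set.InjOn (fun j : Fin 4 => 2 ^ (j : ℕ) * d j) (Finset.univ : Finset (Fin 4)) := by
      intro i _ j _ hij
      simp only at hij
      have key : ∀ i j : Fin 4, (i : ℕ) < j → 2 ^ (i : ℕ) * d i ≠ 2 ^ (j : ℕ) * d j := by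
        intro i j hlt heq
        have h1 : (2 : ℕ) ^ (j : ℕ) = 2 ^ (i : ℕ) * 2 ^ ((j : ℕ) - i) := by
          rw [← pow_add]; congr 1; omega
        rw [h1, mul_assoc] at heq
        have h2 := Nat.eq_of_mul_eq_mul_left (by positivity) heq
        have h3 : 2 ∣ d i := by
          rw [h2]
          refine Dvd.dvd.mul_right (dvd_pow_self 2 (by omega)) _
        exact (Nat.not_even_iff_odd.2 (hdodd i)) (even_iff_two_dvd.2 h3)
      rcases lt_trichotomy (i : ℕ) j with h | h | h
      · exact absurd hij (key i j h)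
      · exact Fin.ext h
      · exact absurd hij.symm (key j i h)
    have hQ2M : ∀ j : Fin 4, ¬ Q ∣ 2 ^ (j : ℕ) * d j := by
      intro j hQd
      have h1 : Nat.Coprime Q (2 ^ (j : ℕ) * d j) := by
        have hc2 : Nat.Coprime Q 2 := Nat.Coprime.coprime_dvd_right (dvd_mul_right 2 M) hcop
        have hcM : Nat.Coprime Q M := Nat.Coprime.coprime_dvd_right (dvd_mul_left M 2) hcop
        exact Nat.Coprime.mul_right (Nat.Coprime.pow_right _ hc2)
          (Nat.Coprime.coprime_dvd_right (hd j) hcM)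
      have h2 := Nat.Coprime.eq_one_of_dvd h1 hQd
      omega
    have hdisj : Disjoint ((Finset.univ : Finset (Fin 4)).image (fun j : Fin 4 => 2 ^ (j : ℕ) * d j))
        (s.image (fun e => Q * e)) := by
      rw [Finset.disjoint_left]
      intro n hn1 hn2
      rw [Finset.mem_image] at hn1 hn2
      obtain ⟨j, -, rfl⟩ := hn1
      obtain ⟨e, -, he⟩ := hn2
      exact hQ2M j ⟨e, he.symm⟩
    have hinjQ : Set.InjOn (fun e => Q * e) (s : Set ℕ) := by
      intro x _ y _ hxy
      exact Nat.eq_of_mul_eq_mul_left (by omega) hxy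
    refine ⟨(Finset.univ : Finset (Fin 4)).image (fun j : Fin 4 => 2 ^ (j : ℕ) * d j) ∪
      s.image (fun e => Q * e), ?_, ?_, ?_⟩
    · intro n hn
      rw [Finset.mem_union, Finset.mem_image, Finset.mem_image] at hn
      rw [Nat.mem_divisors]
      refine ⟨?_, by positivity⟩
      rcases hn with ⟨j, -, rfl⟩ | ⟨e, he, rfl⟩
      · refine Dvd.dvd.mul_right ?_ Q
        refine dvd_trans ?_ hMN
        refine mul_dvd_mul ?_ (hd j)
        have : (16 : ℕ) = 2 ^ 4 := by norm_num
        rw [this]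
        exact pow_dvd_pow 2 (by omega)
      · rw [mul_comm N Q]
        exact mul_dvd_mul_left Q (Nat.dvd_of_mem_divisors (hs he))
    · calc _ ≤ ((Finset.univ : Finset (Fin 4)).image (fun j : Fin 4 => 2 ^ (j : ℕ) * d j)).card +
            (s.image (fun e => Q * e)).card := Finset.card_union_le _ _
        _ ≤ (Finset.univ : Finset (Fin 4)).card + s.card :=
            Nat.add_le_add Finset.card_image_le Finset.card_image_le
        _ ≤ D + 4 := by simp; omega
    · rw [Finset.sum_union hdisj, Finset.sum_image hinj, Finset.sum_image hinjQ, ← Finset.mul_sum,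
        hsum, hmeq]

/-- Base case: `2 ^ L * R` with `R` odd and `R ≤ 2 ^ L`. -/
theorem good_base {L R : ℕ} (hR : Odd R) (hRL : R ≤ 2 ^ L) (hR1 : 1 < R) :
    Good (2 ^ L * R) (2 * (L + 1)) := by
  have hpow : ∀ m ≤ 2 ^ L, ∃ s : Finset ℕ, (∀ i ∈ s, i ≤ L) ∧ ∑ i ∈ s, 2 ^ i = m := by
    intro m hm
    refine ⟨m.bitIndices.toFinset, ?_, ?_⟩
    · intro i hi
      rw [List.mem_toFinset] at hi
      have h1 : 2 ^ i ≤ m := Nat.two_pow_le_of_mem_bitIndices hi
      exact (Nat.pow_le_pow_iff_right (by norm_num)).1 (h1.trans hm)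
    · have h1 := Nat.sum_map_two_pow_bitIndices m
      rw [List.sum_toFinset]
      · exact h1
      · exact (Nat.bitIndices_sorted).nodup
  intro m hm
  set q := m / R with hq
  set r := m % R with hr
  have hR0 : 0 < R := by omega
  have hqr : R * q + r = m := Nat.div_add_mod _ _
  have hrR : r < R := Nat.mod_lt _ hR0
  have hqL : q ≤ 2 ^ L := by
    rw [hq]
    exact Nat.div_le_of_le_mul (by rw [mul_comm]; exact hm)
  obtain ⟨s1, hs1, hsum1⟩ := hpow q hqL
  obtain ⟨s2, hs2, hsum2⟩ := hpow r (by omega)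
  have hinj1 : Set.InjOn (fun i => R * 2 ^ i) (s1 : Set ℕ) := by
    intro x _ y _ hxy
    exact Nat.pow_right_injective (le_refl 2) (Nat.eq_of_mul_eq_mul_left hR0 hxy)
  have hinj2 : Set.InjOn (fun i => 2 ^ i) (s2 : Set ℕ) := by
    intro x _ y _ hxy
    exact Nat.pow_right_injective (le_refl 2) hxy
  have hcard : ∀ s : Finset ℕ, (∀ i ∈ s, i ≤ L) → s.card ≤ L + 1 := by
    intro s hs
    have : s ⊆ Finset.range (L + 1) := fun i hi => Finset.mem_range.2 (by have := hs i hi; omega)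
    simpa using Finset.card_le_card this
  have hdisj : Disjoint (s1.image (fun i => R * 2 ^ i)) (s2.image (fun i => 2 ^ i)) := by
    rw [Finset.disjoint_left]
    intro n hn1 hn2
    rw [Finset.mem_image] at hn1 hn2
    obtain ⟨i, -, rfl⟩ := hn1
    obtain ⟨j, -, hj⟩ := hn2
    have h1 : R ∣ 2 ^ j := ⟨2 ^ i, hj⟩
    have h2 : Nat.Coprime R (2 ^ j) := Nat.Coprime.pow_right _ (Nat.coprime_two_right.2 hR)
    have := Nat.Coprime.eq_one_of_dvd h2 h1
    omega
  refine ⟨s1.image (fun i => R * 2 ^ i) ∪ s2.image (fun i => 2 ^ i), ?_, ?_, ?_⟩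
  · intro n hn
    rw [Finset.mem_union, Finset.mem_image, Finset.mem_image] at hn
    rw [Nat.mem_divisors]
    refine ⟨?_, by positivity⟩
    rcases hn with ⟨i, hi, rfl⟩ | ⟨i, hi, rfl⟩
    · rw [mul_comm]
      exact mul_dvd_mul (pow_dvd_pow 2 (hs1 i hi)) dvd_rfl
    · exact Dvd.dvd.mul_right (pow_dvd_pow 2 (hs2 i hi)) _
  · calc _ ≤ (s1.image (fun i => R * 2 ^ i)).card + (s2.image (fun i => 2 ^ i)).card :=
          Finset.card_union_le _ _
      _ ≤ s1.card + s2.card := Nat.add_le_add Finset.card_image_le Finset.card_image_le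
      _ ≤ 2 * (L + 1) := by have := hcard s1 hs1; have := hcard s2 hs2; omega
  · rw [Finset.sum_union hdisj, Finset.sum_image hinj1, Finset.sum_image hinj2, ← Finset.mul_sum,
      hsum1, hsum2, hqr]

end Vale.Agent.Lib.P012
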