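import Vale.Agent.Lib.P012.Step

namespace Vale.Agent.Lib.P012

open Finset

theorem clog_bound (b : ℕ) (hb : 3 ≤ b) :
    (Nat.clog 2 (Nat.clog 2 b) : ℝ) ≤ 2 * Real.log (Real.log b) + 4 := by
  have hb' : (3 : ℝ) ≤ b := by exact_mod_cast hb
  have hl2 : (0.69 : ℝ) < Real.log 2 := by linarith [Real.log_two_gt_d9]
  have hl2' : Real.log 2 < 0.7 := by linarith [Real.log_two_lt_d9]
  have hl3 : (1 : ℝ) < Real.log 3 := by
    rw [Real.lt_log_iff_exp_lt (by norm_num)]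
    exact Real.exp_one_lt_three
  have hlb : (1 : ℝ) < Real.log b := lt_of_lt_of_le hl3 (Real.log_le_log (by norm_num) hb')
  -- first logarithm
  have h1 : (Nat.clog 2 b : ℝ) ≤ 3 * Real.log b := by
    have h2 : (Nat.clog 2 b : ℝ) < Real.logb 2 b + 1 := by
      rw [← Real.natCeil_logb_natCast]
      push_cast
      exact Nat.ceil_lt_add_one (Real.logb_nonneg (by norm_num) (by linarith))
    have h3 : Real.logb 2 b ≤ 2 * Real.log b := by
      rw [Real.logb, div_le_iff₀ (by linarith)]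
      nlinarith
    linarith
  have hc1 : 1 ≤ Nat.clog 2 b := Nat.clog_pos (by norm_num) (by omega)
  have hc1' : (1 : ℝ) ≤ Nat.clog 2 b := by exact_mod_cast hc1
  have h4 : (Nat.clog 2 (Nat.clog 2 b) : ℝ) < Real.logb 2 (Nat.clog 2 b) + 1 := by
    rw [← Real.natCeil_logb_natCast 2 (Nat.clog 2 b)]
    push_cast
    exact Nat.ceil_lt_add_one (Real.logb_nonneg (by norm_num) hc1')
  have h5 : Real.log (Nat.clog 2 b) ≤ Real.log 3 + Real.log (Real.log b) := by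
    rw [← Real.log_mul (by norm_num) (by linarith)]
    exact Real.log_le_log (by linarith) h1
  have hll : 0 < Real.log (Real.log b) := Real.log_pos hlb
  have hl3' : Real.log 3 ≤ 1.4 := by
    have : Real.log 3 ≤ Real.log (2 ^ 2) := Real.log_le_log (by norm_num) (by norm_num)
    rw [Real.log_pow] at this
    push_cast at this
    linarith
  have h6 : Real.logb 2 (Nat.clog 2 b) ≤ 2 * Real.log (Real.log b) + 3 := by
    rw [Real.logb, div_le_iff₀ (by linarith)]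
    have : Real.log 3 + Real.log (Real.log b) ≤ (2 * Real.log (Real.log b) + 3) * 0.69 := by
      linarith
    have h7 : (2 * Real.log (Real.log b) + 3) * 0.69 ≤ (2 * Real.log (Real.log b) + 3) * Real.log 2 := by
      gcongr
    linarith
  linarith

theorem main : ∃ C : ℝ, ∀ b : ℕ, 3 ≤ b → ∀ a : ℕ, 1 ≤ a → a < b →
    ∃ s : Finset ℕ, (∀ n ∈ s, 2 ≤ n) ∧ (s.card : ℝ) ≤ C * Real.log (Real.log b) ^ 2 ∧
      ∑ n ∈ s, (1 : ℚ) / n = a / b := by
  obtain ⟨D₀, hlev⟩ := levels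
  -- the constant
  have hl3 : (1 : ℝ) < Real.log 3 := by
    rw [Real.lt_log_iff_exp_lt (by norm_num)]
    exact Real.exp_one_lt_three
  set L₀ := Real.log (Real.log 3) with hL₀
  have hL₀pos : 0 < L₀ := Real.log_pos hl3
  refine ⟨2 * (D₀ / L₀ ^ 2 + 416 * (2 + 15 / L₀) ^ 2), fun b hb a ha hab => ?_⟩
  have hb' : (3 : ℝ) ≤ b := by exact_mod_cast hb
  set L := Real.log (Real.log b) with hL
  have hLL : L₀ ≤ L := Real.log_le_log (by linarith) (Real.log_le_log (by norm_num) hb')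
  have hLpos : 0 < L := lt_of_lt_of_le hL₀pos hLL
  set n := Nat.clog 2 (Nat.clog 2 b) with hn
  obtain ⟨N, D, hLvl, hD⟩ := hlev n
  have hbN : b ≤ N := by
    have h1 : b ≤ 2 ^ Nat.clog 2 b := Nat.le_pow_clog (by norm_num) b
    have h2 : Nat.clog 2 b ≤ 2 ^ n := Nat.le_pow_clog (by norm_num) _
    have h3 : (2 : ℕ) ^ n ≤ 2 ^ (n + 9) := Nat.pow_le_pow_right (by norm_num) (by omega)
    calc b ≤ 2 ^ Nat.clog 2 b := h1
      _ ≤ 2 ^ (2 ^ (n + 9)) := Nat.pow_le_pow_right (by norm_num) (h2.trans h3)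
      _ ≤ N := lvl_large hLvl
  obtain ⟨s, hs2, hscard, hsum⟩ := egyptian_of_good hLvl.2.1 hbN hab
  refine ⟨s, hs2, ?_, hsum⟩
  have hn1 : (n : ℝ) ≤ 2 * L + 4 := clog_bound b hb
  have hn2 : (n : ℝ) + 11 ≤ (2 + 15 / L₀) * L := by
    have h4 : 15 ≤ 15 / L₀ * L := by
      rw [div_mul_eq_mul_div, le_div_iff₀ hL₀pos]
      nlinarith
    nlinarith
  have hDr : (D : ℝ) ≤ D₀ + 416 * (n * (n + 11)) := by exact_mod_cast hD
  have h5 : (n : ℝ) * (n + 11) ≤ ((2 + 15 / L₀) * L) ^ 2 := by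
    rw [sq]
    have hn0 : (0 : ℝ) ≤ n := Nat.cast_nonneg n
    apply mul_le_mul _ hn2 (by positivity) (by positivity)
    linarith
  have h6 : (D₀ : ℝ) ≤ D₀ / L₀ ^ 2 * L ^ 2 := by
    rw [div_mul_eq_mul_div, le_div_iff₀ (by positivity)]
    gcongr
  have hsc : (s.card : ℝ) ≤ 2 * D := by exact_mod_cast hscard
  calc (s.card : ℝ) ≤ 2 * D := hsc
    _ ≤ 2 * (D₀ + 416 * (n * (n + 11))) := by gcongr
    _ ≤ 2 * (D₀ / L₀ ^ 2 * L ^ 2 + 416 * ((2 + 15 / L₀) * L) ^ 2) := by gcongr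
    _ = _ := by ring

end Vale.Agent.Lib.P012
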