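import Mathlib

namespace Vale.Agent.Lib.P012

open Finset

section

variable {ι : Type*} [Fintype ι] [DecidableEq ι] {q : ι → ℕ} [∀ i, Fact (q i).Prime]

/-- The standard additive character of `∏ ZMod (q i)`. -/
noncomputable def psi (x : ∀ i, ZMod (q i)) : ℂ := ∏ i, ZMod.stdAddChar (x i)

omit [DecidableEq ι] in
theorem psi_add (x y : ∀ i, ZMod (q i)) : psi (x + y) = psi x * psi y := by
  simp [psi, AddChar.map_add_eq_mul, Finset.prod_mul_distrib]

omit [DecidableEq ι] in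
theorem psi_zero : psi (0 : ∀ i, ZMod (q i)) = 1 := by
  simp [psi]

omit [DecidableEq ι] in
theorem norm_psi (x : ∀ i, ZMod (q i)) : ‖psi x‖ = 1 := by
  simp [psi]

omit [DecidableEq ι] in
theorem conj_psi (x : ∀ i, ZMod (q i)) : (starRingEnd ℂ) (psi x) = psi (-x) := by
  have h1 : psi x * psi (-x) = 1 := by rw [← psi_add]; simp [psi_zero]
  have h2 : psi x * (starRingEnd ℂ) (psi x) = 1 := by
    rw [Complex.mul_conj, Complex.normSq_eq_norm_sq, norm_psi]; simp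
  have h0 : psi x ≠ 0 := by
    intro h; rw [h] at h1; simp at h1
  exact mul_left_cancel₀ h0 (h2.trans h1.symm)

/-- Vectors supported on `T`. -/
def RT (q : ι → ℕ) [∀ i, Fact (q i).Prime] (T : Finset ι) : Finset (∀ i, ZMod (q i)) :=
  Fintype.piFinset (fun i => if i ∈ T then (univ : Finset (ZMod (q i))) else {0})

theorem mem_RT {T : Finset ι} {c : ∀ i, ZMod (q i)} : c ∈ RT q T ↔ ∀ i, i ∉ T → c i = 0 := by
  rw [RT, Fintype.mem_piFinset]
  refine forall_congr' fun i => ?_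
  by_cases h : i ∈ T <;> simp [h]

theorem orth (T : Finset ι) (x : ∀ i, ZMod (q i)) :
    ∑ c ∈ RT q T, psi (c * x) = if ∀ i ∈ T, x i = 0 then ∏ i ∈ T, (q i : ℂ) else 0 := by
  have h1 : ∑ c ∈ RT q T, psi (c * x) =
      ∏ i, ∑ y ∈ (if i ∈ T then (univ : Finset (ZMod (q i))) else {0}),
        ZMod.stdAddChar (y * x i) := by
    rw [Finset.prod_univ_sum]
    rfl
  rw [h1]
  have h2 : ∀ i, ∑ y ∈ (if i ∈ T then (univ : Finset (ZMod (q i))) else {0}),
        (ZMod.stdAddChar (y * x i) : ℂ) = if i ∈ T then (if x i = 0 then (q i : ℂ) else 0) else 1 := by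
    intro i
    by_cases h : i ∈ T
    · simp only [h, if_true]
      rw [AddChar.sum_mulShift (x i) (ZMod.isPrimitive_stdAddChar (q i))]
      simp [ZMod.card]
    · simp [h]
  rw [Finset.prod_congr rfl fun i _ => h2 i]
  rw [Fintype.prod_ite_mem, Finset.prod_ite_zero]
  split_ifs <;> rfl

/-- Collisions of `A` modulo the `q i`, `i ∈ T`. -/
def coll (q : ι → ℕ) (A : Finset ℕ) (T : Finset ι) : ℕ :=
  ((A ×ˢ A).filter (fun p => ∀ i ∈ T, (p.1 : ZMod (q i)) = (p.2 : ZMod (q i)))).card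

/-- The inner sum. -/
noncomputable def Fsum (A : Finset ℕ) (c : ∀ i, ZMod (q i)) : ℂ :=
  ∑ a ∈ A, psi (c * (a : ∀ i, ZMod (q i)))

theorem sum_norm_Fsum_sq (A : Finset ℕ) (T : Finset ι) :
    ∑ c ∈ RT q T, ‖Fsum A c‖ ^ 2 = (∏ i ∈ T, (q i : ℝ)) * coll q A T := by
  have key : ∑ c ∈ RT q T, ((‖Fsum A c‖ ^ 2 : ℝ) : ℂ) = (∏ i ∈ T, (q i : ℂ)) * coll q A T := by
    have h1 : ∀ c : ∀ i, ZMod (q i), ((‖Fsum A c‖ ^ 2 : ℝ) : ℂ) =
        ∑ p ∈ A ×ˢ A, psi (c * ((p.1 : ∀ i, ZMod (q i)) - (p.2 : ∀ i, ZMod (q i)))) := by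
      intro c
      have : ((‖Fsum A c‖ ^ 2 : ℝ) : ℂ) = Fsum A c * (starRingEnd ℂ) (Fsum A c) := by
        rw [Complex.mul_conj, Complex.normSq_eq_norm_sq]
      rw [this, Fsum, map_sum, Finset.sum_mul_sum, Finset.sum_product]
      refine Finset.sum_congr rfl fun a _ => Finset.sum_congr rfl fun b _ => ?_
      rw [conj_psi, ← psi_add]
      congr 1
      ring
    rw [Finset.sum_congr rfl fun c _ => h1 c, Finset.sum_comm]
    rw [Finset.sum_congr rfl fun p _ => orth T _]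
    rw [← Finset.sum_filter, Finset.sum_const, nsmul_eq_mul, mul_comm]
    congr 2
    unfold coll
    congr 1
    refine Finset.filter_congr fun p _ => ?_
    refine forall₂_congr fun i _ => ?_
    rw [Pi.sub_apply, Pi.natCast_apply, Pi.natCast_apply, sub_eq_zero]
  have h2 : ((∑ c ∈ RT q T, ‖Fsum A c‖ ^ 2 : ℝ) : ℂ) =
      (((∏ i ∈ T, (q i : ℝ)) * coll q A T : ℝ) : ℂ) := by
    push_cast
    push_cast at key
    exact key
  exact_mod_cast h2

/-- The support of `h`. -/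
def supp (h : ∀ i, ZMod (q i)) : Finset ι := univ.filter (fun i => h i ≠ 0)

theorem bilinear_bound (A : Finset ℕ) (h : ∀ i, ZMod (q i)) :
    ‖∑ a ∈ A, Fsum A (h * (a : ∀ i, ZMod (q i)))‖ ^ 2 ≤
      (∏ i ∈ supp h, (q i : ℝ)) * (coll q A (supp h)) ^ 2 := by
  set T := supp h with hT
  have hmaps : ∀ a ∈ A, h * (a : ∀ i, ZMod (q i)) ∈ RT q T := by
    intro a _
    rw [mem_RT]
    intro i hi
    have : h i = 0 := by
      by_contra hne
      exact hi (by rw [hT, supp]; simp [hne])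
    simp [this]
  have h1 : ∑ a ∈ A, ‖Fsum A (h * (a : ∀ i, ZMod (q i)))‖ =
      ∑ c ∈ RT q T, ((A.filter (fun a => h * ((a : ℕ) : ∀ i, ZMod (q i)) = c)).card : ℝ) *
        ‖Fsum A c‖ := by
    rw [← Finset.sum_fiberwise_of_maps_to hmaps]
    refine Finset.sum_congr rfl fun c _ => ?_
    rw [Finset.sum_congr rfl (g := fun _ => ‖Fsum A c‖)]
    · rw [Finset.sum_const, nsmul_eq_mul]
    · intro a ha
      rw [(Finset.mem_filter.1 ha).2]
  have h2 : ∑ c ∈ RT q T, ((A.filter (fun a => h * ((a : ℕ) : ∀ i, ZMod (q i)) = c)).card : ℝ) ^ 2 =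
      coll q A T := by
    have h3 : ∀ c : ∀ i, ZMod (q i),
        ((A.filter (fun a => h * ((a : ℕ) : ∀ i, ZMod (q i)) = c)).card : ℝ) ^ 2 =
        ∑ p ∈ A ×ˢ A, if (h * ((p.1 : ℕ) : ∀ i, ZMod (q i)) = c ∧
          h * ((p.2 : ℕ) : ∀ i, ZMod (q i)) = c) then (1 : ℝ) else 0 := by
      intro c
      rw [Finset.sum_product, Finset.card_filter]
      push_cast
      rw [sq, Finset.sum_mul_sum]
      refine Finset.sum_congr rfl fun a _ => Finset.sum_congr rfl fun b _ => ?_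
      by_cases h5 : h * ((a : ℕ) : ∀ i, ZMod (q i)) = c <;>
        by_cases h6 : h * ((b : ℕ) : ∀ i, ZMod (q i)) = c <;> simp [h5, h6]
    rw [Finset.sum_congr rfl fun c _ => h3 c, Finset.sum_comm]
    have h4 : ∀ p ∈ A ×ˢ A, (∑ c ∈ RT q T, if (h * ((p.1 : ℕ) : ∀ i, ZMod (q i)) = c ∧
          h * ((p.2 : ℕ) : ∀ i, ZMod (q i)) = c) then (1 : ℝ) else 0) =
          if (∀ i ∈ T, (p.1 : ZMod (q i)) = (p.2 : ZMod (q i))) then 1 else 0 := by
      intro p hp
      have hiff : (∀ i ∈ T, (p.1 : ZMod (q i)) = (p.2 : ZMod (q i))) ↔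
          h * ((p.1 : ℕ) : ∀ i, ZMod (q i)) = h * ((p.2 : ℕ) : ∀ i, ZMod (q i)) := by
        constructor
        · intro hall
          funext i
          by_cases hi : i ∈ T
          · simp [hall i hi]
          · have : h i = 0 := by
              by_contra hne
              exact hi (by rw [hT, supp]; simp [hne])
            simp [this]
        · intro heq i hi
          have hne : h i ≠ 0 := by
            rw [hT, supp] at hi
            simpa using hi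
          have := congrFun heq i
          simp only [Pi.mul_apply, Pi.natCast_apply] at this
          exact mul_left_cancel₀ hne this
      by_cases hcase : h * ((p.1 : ℕ) : ∀ i, ZMod (q i)) = h * ((p.2 : ℕ) : ∀ i, ZMod (q i))
      · rw [if_pos (hiff.2 hcase)]
        rw [Finset.sum_eq_single (h * ((p.1 : ℕ) : ∀ i, ZMod (q i)))]
        · rw [if_pos ⟨rfl, hcase.symm⟩]
        · intro c _ hc
          rw [if_neg]
          rintro ⟨h5, -⟩
          exact hc h5.symm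
        · intro hnot
          exact absurd (hmaps p.1 (Finset.mem_product.1 hp).1) hnot
      · rw [if_neg (fun hh => hcase (hiff.1 hh))]
        refine Finset.sum_eq_zero fun c _ => ?_
        rw [if_neg]
        rintro ⟨h5, h6⟩
        exact hcase (h5.trans h6.symm)
    rw [Finset.sum_congr rfl h4, coll, Finset.card_filter]
    push_cast
    rfl
  calc ‖∑ a ∈ A, Fsum A (h * (a : ∀ i, ZMod (q i)))‖ ^ 2
      ≤ (∑ a ∈ A, ‖Fsum A (h * (a : ∀ i, ZMod (q i)))‖) ^ 2 := by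
        gcongr
        exact norm_sum_le _ _
    _ = (∑ c ∈ RT q T, ((A.filter (fun a => h * ((a : ℕ) : ∀ i, ZMod (q i)) = c)).card : ℝ) *
        ‖Fsum A c‖) ^ 2 := by rw [h1]
    _ ≤ (∑ c ∈ RT q T, ((A.filter (fun a => h * ((a : ℕ) : ∀ i, ZMod (q i)) = c)).card : ℝ) ^ 2) *
        ∑ c ∈ RT q T, ‖Fsum A c‖ ^ 2 := Finset.sum_mul_sq_le_sq_mul_sq _ _ _
    _ = (∏ i ∈ T, (q i : ℝ)) * (coll q A T) ^ 2 := by
        rw [h2, sum_norm_Fsum_sq]; ring

omit [DecidableEq ι] in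
theorem supp_two_pow (h2 : ∀ i, (2 : ZMod (q i)) ≠ 0) (j : ℕ) (h : ∀ i, ZMod (q i)) :
    supp (2 ^ j * h) = supp h := by
  unfold supp
  refine Finset.filter_congr fun i _ => ?_
  have h3 : (2 : ∀ i, ZMod (q i)) i = (2 : ZMod (q i)) := rfl
  rw [Pi.mul_apply, Pi.pow_apply, h3]
  constructor
  · intro hne h0
    exact hne (by rw [h0, mul_zero])
  · intro hne
    exact mul_ne_zero (pow_ne_zero _ (h2 i)) hne

/-- Every residue is a sum of four dilated products. -/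
theorem cover (A : Finset ℕ) (hA : A.Nonempty) (h2 : ∀ i, (2 : ZMod (q i)) ≠ 0) (lam B : ℝ)
    (hlam : 0 ≤ lam) (hB : ∀ i, (q i : ℝ) ≤ B)
    (hC : ∀ T : Finset ι, (coll q A T : ℝ) ≤ (A.card : ℝ) ^ 2 * lam ^ T.card)
    (hsum : (1 + B ^ 3 * lam ^ 4) ^ (Fintype.card ι) < 2) (z : ∀ i, ZMod (q i)) :
    ∃ a b : Fin 4 → ℕ, (∀ j, a j ∈ A) ∧ (∀ j, b j ∈ A) ∧
      ∑ j : Fin 4, 2 ^ (j : ℕ) * ((a j : ∀ i, ZMod (q i)) * (b j : ∀ i, ZMod (q i))) = z := by
  by_contra hno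
  push Not at hno
  have hAc : (0 : ℝ) < A.card := by exact_mod_cast hA.card_pos
  -- the bilinear sums
  set S : (∀ i, ZMod (q i)) → ℂ := fun h => ∑ a ∈ A, Fsum A (h * (a : ∀ i, ZMod (q i))) with hS
  set val : (Fin 4 → ℕ × ℕ) → (∀ i, ZMod (q i)) := fun t =>
    ∑ j : Fin 4, 2 ^ (j : ℕ) * (((t j).1 : ∀ i, ZMod (q i)) * ((t j).2 : ∀ i, ZMod (q i)))
    with hval
  have hSprod : ∀ h : ∀ i, ZMod (q i), S h = ∑ p ∈ A ×ˢ A,
      psi (h * ((p.1 : ∀ i, ZMod (q i)) * (p.2 : ∀ i, ZMod (q i)))) := by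
    intro h
    rw [hS, Finset.sum_product]
    refine Finset.sum_congr rfl fun a _ => Finset.sum_congr rfl fun b _ => ?_
    rw [mul_assoc]
  have hpsi_sum : ∀ (f : Fin 4 → (∀ i, ZMod (q i))), psi (∑ j, f j) = ∏ j, psi (f j) := by
    intro f
    simp only [Fin.sum_univ_four, Fin.prod_univ_four, psi_add]
  have hprod : ∀ h : ∀ i, ZMod (q i), ∏ j : Fin 4, S (2 ^ (j : ℕ) * h) =
      ∑ t ∈ Fintype.piFinset (fun _ : Fin 4 => A ×ˢ A), psi (h * val t) := by
    intro h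
    rw [Finset.prod_congr rfl fun (j : Fin 4) _ => hSprod (2 ^ (j : ℕ) * h)]
    rw [Finset.prod_univ_sum]
    refine Finset.sum_congr rfl fun t _ => ?_
    rw [← hpsi_sum, hval, Finset.mul_sum]
    congr 1
    refine Finset.sum_congr rfl fun j _ => ?_
    ring
  have hzero : ∑ h : (∀ i, ZMod (q i)), psi (h * (-z)) * ∏ j : Fin 4, S (2 ^ (j : ℕ) * h) = 0 := by
    have h5 : ∀ h : (∀ i, ZMod (q i)), psi (h * (-z)) * ∏ j : Fin 4, S (2 ^ (j : ℕ) * h) =
        ∑ t ∈ Fintype.piFinset (fun _ : Fin 4 => A ×ˢ A), psi (h * (val t - z)) := by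
      intro h
      rw [hprod, Finset.mul_sum]
      refine Finset.sum_congr rfl fun t _ => ?_
      rw [← psi_add]
      congr 1
      ring
    rw [Finset.sum_congr rfl fun h _ => h5 h, Finset.sum_comm]
    refine Finset.sum_eq_zero fun t ht => ?_
    have huniv : (univ : Finset (∀ i, ZMod (q i))) = RT q univ := by
      ext c; simp [mem_RT]
    rw [huniv, orth, if_neg]
    intro hall
    rw [Fintype.mem_piFinset] at ht
    refine hno (fun j => (t j).1) (fun j => (t j).2) (fun j => (Finset.mem_product.1 (ht j)).1)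
      (fun j => (Finset.mem_product.1 (ht j)).2) ?_
    funext i
    have := hall i (Finset.mem_univ i)
    rw [Pi.sub_apply, sub_eq_zero] at this
    exact this
  -- isolate h = 0
  rw [← Finset.add_sum_erase _ _ (Finset.mem_univ (0 : ∀ i, ZMod (q i)))] at hzero
  have hmain : psi ((0 : ∀ i, ZMod (q i)) * (-z)) * ∏ j : Fin 4, S (2 ^ (j : ℕ) * 0) =
      ((A.card : ℂ) ^ 2) ^ 4 := by
    have h0 : S 0 = (A.card : ℂ) ^ 2 := by
      rw [hSprod]
      simp [psi_zero, Finset.card_product, sq]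
    simp only [mul_zero, zero_mul, psi_zero, h0, one_mul, Finset.prod_const, Finset.card_univ,
      Fintype.card_fin]
  rw [hmain] at hzero
  have hnorm1 : (((A.card : ℝ)) ^ 2) ^ 4 = ‖∑ h ∈ univ.erase (0 : ∀ i, ZMod (q i)),
      psi (h * (-z)) * ∏ j : Fin 4, S (2 ^ (j : ℕ) * h)‖ := by
    have h6 : ∑ h ∈ univ.erase (0 : ∀ i, ZMod (q i)),
      psi (h * (-z)) * ∏ j : Fin 4, S (2 ^ (j : ℕ) * h) = - ((A.card : ℂ) ^ 2) ^ 4 := by
      linear_combination hzero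
    rw [h6, norm_neg]
    simp
  -- pointwise bound
  have hpt : ∀ h : ∀ i, ZMod (q i), ‖psi (h * (-z)) * ∏ j : Fin 4, S (2 ^ (j : ℕ) * h)‖ ≤
      ((A.card : ℝ) ^ 2) ^ 4 * ∏ i, (if h i ≠ 0 then B ^ 2 * lam ^ 4 else 1) := by
    intro h
    rw [norm_mul, norm_psi, one_mul, norm_prod]
    have hSb : ∀ j : Fin 4, ‖S (2 ^ (j : ℕ) * h)‖ ^ 2 ≤
        B ^ (supp h).card * ((A.card : ℝ) ^ 2 * lam ^ (supp h).card) ^ 2 := by
      intro j
      have h7 := bilinear_bound A (2 ^ (j : ℕ) * h)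
      rw [supp_two_pow h2] at h7
      refine h7.trans ?_
      have h8 : ∏ i ∈ supp h, (q i : ℝ) ≤ B ^ (supp h).card := by
        rw [← Finset.prod_const]
        exact Finset.prod_le_prod (fun i _ => by positivity) (fun i _ => hB i)
      have h9 := hC (supp h)
      have h10 : (0 : ℝ) ≤ coll q A (supp h) := by positivity
      have h10' : (0 : ℝ) ≤ B ^ (supp h).card :=
        le_trans (Finset.prod_nonneg fun i _ => by positivity) h8
      gcongr
    have h11 : (∏ j : Fin 4, ‖S (2 ^ (j : ℕ) * h)‖) =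
        Real.sqrt (∏ j : Fin 4, ‖S (2 ^ (j : ℕ) * h)‖ ^ 2) := by
      rw [Finset.prod_pow, Real.sqrt_sq (Finset.prod_nonneg fun _ _ => norm_nonneg _)]
    rw [h11]
    have hBnn : 0 ≤ B ^ (supp h).card * ((A.card : ℝ) ^ 2 * lam ^ (supp h).card) ^ 2 :=
      le_trans (by positivity) (hSb 0)
    have h12 : ∏ j : Fin 4, ‖S (2 ^ (j : ℕ) * h)‖ ^ 2 ≤
        (B ^ (supp h).card * ((A.card : ℝ) ^ 2 * lam ^ (supp h).card) ^ 2) ^ 4 := by
      calc ∏ j : Fin 4, ‖S (2 ^ (j : ℕ) * h)‖ ^ 2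
          ≤ ∏ _j : Fin 4, (B ^ (supp h).card * ((A.card : ℝ) ^ 2 * lam ^ (supp h).card) ^ 2) :=
            Finset.prod_le_prod (fun j _ => by positivity) (fun j _ => hSb j)
        _ = _ := by rw [Finset.prod_const, Finset.card_univ, Fintype.card_fin]
    have h13 : ∏ i, (if h i ≠ 0 then B ^ 2 * lam ^ 4 else 1) = (B ^ 2 * lam ^ 4) ^ (supp h).card := by
      rw [Finset.prod_ite, Finset.prod_const_one, mul_one, Finset.prod_const]
      rfl
    rw [h13]
    calc Real.sqrt (∏ j : Fin 4, ‖S (2 ^ (j : ℕ) * h)‖ ^ 2)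
        ≤ Real.sqrt ((B ^ (supp h).card * ((A.card : ℝ) ^ 2 * lam ^ (supp h).card) ^ 2) ^ 4) :=
          Real.sqrt_le_sqrt h12
      _ = (B ^ (supp h).card * ((A.card : ℝ) ^ 2 * lam ^ (supp h).card) ^ 2) ^ 2 := by
          rw [show (4 : ℕ) = 2 * 2 from rfl, pow_mul, Real.sqrt_sq (by positivity)]
      _ = ((A.card : ℝ) ^ 2) ^ 4 * (B ^ 2 * lam ^ 4) ^ (supp h).card := by ring
  have hB0 : ∀ i : ι, (1 : ℝ) ≤ B := fun i => le_trans
    (by exact_mod_cast (Fact.out : (q i).Prime).one_lt.le) (hB i)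
  -- total
  have htot : ∑ h : (∀ i, ZMod (q i)), ∏ i, (if h i ≠ 0 then B ^ 2 * lam ^ 4 else 1) < 2 := by
    have h14 : ∑ h : (∀ i, ZMod (q i)), ∏ i, (if h i ≠ 0 then B ^ 2 * lam ^ 4 else (1 : ℝ)) =
        ∏ i, ∑ y : ZMod (q i), (if y ≠ 0 then B ^ 2 * lam ^ 4 else (1 : ℝ)) := by
      rw [Finset.prod_univ_sum]
      rfl
    rw [h14]
    refine lt_of_le_of_lt ?_ hsum
    rw [← Finset.card_univ, ← Finset.prod_const]
    refine Finset.prod_le_prod (fun i _ => Finset.sum_nonneg fun y _ => ?_) (fun i _ => ?_)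
    · split_ifs <;> positivity
    · rw [← Finset.add_sum_erase _ _ (Finset.mem_univ (0 : ZMod (q i)))]
      rw [if_neg (by simp)]
      have h15 : ∑ y ∈ univ.erase (0 : ZMod (q i)), (if y ≠ 0 then B ^ 2 * lam ^ 4 else (1 : ℝ)) =
          ((q i : ℝ) - 1) * (B ^ 2 * lam ^ 4) := by
        rw [Finset.sum_congr rfl (g := fun _ => B ^ 2 * lam ^ 4)]
        · rw [Finset.sum_const, Finset.card_erase_of_mem (Finset.mem_univ _), Finset.card_univ,
            ZMod.card, nsmul_eq_mul, Nat.cast_sub (Fact.out : (q i).Prime).one_lt.le]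
          simp
        · intro y hy
          rw [if_pos (Finset.ne_of_mem_erase hy)]
      rw [h15]
      have h16 : ((q i : ℝ) - 1) ≤ B := by linarith [hB i]
      have h17 : ((q i : ℝ) - 1) * (B ^ 2 * lam ^ 4) ≤ B * (B ^ 2 * lam ^ 4) := by
        gcongr
      calc 1 + ((q i : ℝ) - 1) * (B ^ 2 * lam ^ 4) ≤ 1 + B * (B ^ 2 * lam ^ 4) := by linarith
        _ = 1 + B ^ 3 * lam ^ 4 := by ring
  rw [← Finset.add_sum_erase _ _ (Finset.mem_univ (0 : ∀ i, ZMod (q i)))] at htot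
  have h18 : ∏ i, (if (0 : ∀ i, ZMod (q i)) i ≠ 0 then B ^ 2 * lam ^ 4 else (1 : ℝ)) = 1 := by
    simp
  rw [h18] at htot
  have hfin : (((A.card : ℝ)) ^ 2) ^ 4 < (((A.card : ℝ)) ^ 2) ^ 4 := by
    calc (((A.card : ℝ)) ^ 2) ^ 4 = ‖∑ h ∈ univ.erase (0 : ∀ i, ZMod (q i)),
          psi (h * (-z)) * ∏ j : Fin 4, S (2 ^ (j : ℕ) * h)‖ := hnorm1
      _ ≤ ∑ h ∈ univ.erase (0 : ∀ i, ZMod (q i)),
          ‖psi (h * (-z)) * ∏ j : Fin 4, S (2 ^ (j : ℕ) * h)‖ := norm_sum_le _ _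
      _ ≤ ∑ h ∈ univ.erase (0 : ∀ i, ZMod (q i)),
          ((A.card : ℝ) ^ 2) ^ 4 * ∏ i, (if h i ≠ 0 then B ^ 2 * lam ^ 4 else 1) :=
          Finset.sum_le_sum fun h _ => hpt h
      _ = ((A.card : ℝ) ^ 2) ^ 4 * ∑ h ∈ univ.erase (0 : ∀ i, ZMod (q i)),
          ∏ i, (if h i ≠ 0 then B ^ 2 * lam ^ 4 else 1) := by rw [Finset.mul_sum]
      _ < ((A.card : ℝ) ^ 2) ^ 4 * 1 := by
          apply mul_lt_mul_of_pos_left _ (by positivity)
          linarith
      _ = _ := mul_one _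
  exact lt_irrefl _ hfin

end

end Vale.Agent.Lib.P012
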