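import Vale.Agent.Lib.P012.Select
import Vale.Agent.Lib.P012.Basic

namespace Vale.Agent.Lib.P012

open Finset

theorem cover_nat (A S S' : Finset ℕ) (hAne : A.Nonempty) (hS' : S' ⊆ S)
    (hprime : ∀ p ∈ S, p.Prime) (hodd : ∀ p ∈ S, p ≠ 2) (w B : ℝ) (hw : 1 ≤ w)
    (hB : ∀ p ∈ S, (p : ℝ) ≤ B)
    (hΦ : ∑ e ∈ A.offDiag, (1 + w) ^ ((S.filter (fun p => p ∣ df e)).card) ≤
      3 * (A.card : ℝ) ^ 2) (hA : w ^ S'.card ≤ (A.card : ℝ))
    (hsum : (1 + B ^ 3 * (4 / w) ^ 4) ^ S'.card < 2) (z : ℕ) :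
    ∃ a b : Fin 4 → ℕ, (∀ j, a j ∈ A) ∧ (∀ j, b j ∈ A) ∧
      (∑ j : Fin 4, 2 ^ (j : ℕ) * (a j * b j)) ≡ z [MOD ∏ p ∈ S', p] := by
  haveI : ∀ i : {x // x ∈ S'}, Fact (Nat.Prime (i : ℕ)) := fun i => ⟨hprime _ (hS' i.2)⟩
  have hw0 : 0 < w := by linarith
  obtain ⟨a, b, ha, hb, hab⟩ := cover (q := fun i : {x // x ∈ S'} => (i : ℕ)) A hAne
    (fun i => by
      intro h2
      have h3 : ((2 : ℕ) : ZMod (i : ℕ)) = 0 := by exact_mod_cast h2
      rw [ZMod.natCast_eq_zero_iff] at h3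
      have h4 := (Nat.prime_dvd_prime_iff_eq (hprime _ (hS' i.2)) Nat.prime_two).1 h3
      exact hodd _ (hS' i.2) h4)
    (4 / w) B (by positivity) (fun i => hB _ (hS' i.2))
    (fun T => coll_le A S' S hS' w hw hΦ hA T)
    (by simpa using hsum) (fun _ => (z : ZMod _))
  refine ⟨a, b, ha, hb, ?_⟩
  have key : (∏ p ∈ S', p) ∣ df (∑ j : Fin 4, 2 ^ (j : ℕ) * (a j * b j), z) := by
    refine Finset.prod_primes_dvd _ (fun p hp => (hprime p (hS' hp)).prime) fun p hp => ?_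
    rw [df_dvd_iff]
    have := congrFun hab ⟨p, hp⟩
    simp only [Finset.sum_apply, Pi.mul_apply, Pi.natCast_apply] at this
    push_cast
    simpa using this
  rw [df_dvd_iff] at key
  exact (ZMod.natCast_eq_natCast_iff _ _ _).1 key

theorem extend_groups (P : ℕ) (hPodd : Odd P) (S : Finset ℕ)
    (hprime : ∀ p ∈ S, p.Prime) (hodd : ∀ p ∈ S, p ≠ 2) (hSP : ∀ p ∈ S, ¬ p ∣ P)
    (w B : ℝ) (hw : 1 ≤ w) (hB1 : 0 ≤ B)
    (hB : ∀ p ∈ S, (p : ℝ) ≤ B)
    (hΦ : ∑ e ∈ P.divisors.offDiag, (1 + w) ^ ((S.filter (fun p => p ∣ df e)).card) ≤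
      3 * (P.divisors.card : ℝ) ^ 2)
    (K : ℕ) (hK : w ^ K ≤ (P.divisors.card : ℝ))
    (hsum : (1 + B ^ 3 * (4 / w) ^ 4) ^ K < 2) :
    ∀ n : ℕ, ∀ U : Finset ℕ, U ⊆ S → U.card ≤ n * K → ∀ N D : ℕ, Good N D → 16 * P ^ 2 ∣ N → 0 < N →
      Good (N * ∏ p ∈ U, p) (D + 4 * n) := by
  have hw0 : 0 < w := by linarith
  have hP0 : 0 < P := hPodd.pos
  -- one group
  have one : ∀ V : Finset ℕ, V ⊆ S → V.card ≤ K → ∀ N D : ℕ, Good N D → 16 * P ^ 2 ∣ N → 0 < N →
      Good (N * ∏ p ∈ V, p) (D + 4) := by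
    intro V hVS hVK N D hG hdvd hN
    rcases V.eq_empty_or_nonempty with rfl | hVne
    · simp only [Finset.prod_empty, mul_one]
      exact hG.mono (by omega)
    · refine hG.extend hdvd hN (hPodd.pow) ?_ ?_ ?_
      · obtain ⟨p, hp⟩ := hVne
        have h1 : p ∣ ∏ p ∈ V, p := Finset.dvd_prod_of_mem _ hp
        have h2 : 0 < ∏ p ∈ V, p := Finset.prod_pos fun q hq => (hprime q (hVS hq)).pos
        exact lt_of_lt_of_le (hprime p (hVS hp)).one_lt (Nat.le_of_dvd h2 h1)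
      · refine Nat.Coprime.prod_left fun p hp => ?_
        have hp' := hprime p (hVS hp)
        refine Nat.Coprime.mul_right ?_ (Nat.Coprime.pow_right _ ?_)
        · rw [Nat.coprime_primes hp' Nat.prime_two]
          exact hodd p (hVS hp)
        · rw [Nat.Prime.coprime_iff_not_dvd hp']
          exact hSP p (hVS hp)
      · intro z
        have hA1 : w ^ V.card ≤ (P.divisors.card : ℝ) :=
          (pow_le_pow_right₀ hw hVK).trans hK
        have hs1 : (1 + B ^ 3 * (4 / w) ^ 4) ^ V.card < 2 := by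
          refine lt_of_le_of_lt (pow_le_pow_right₀ ?_ hVK) hsum
          have : 0 ≤ B ^ 3 * (4 / w) ^ 4 := by positivity
          linarith
        obtain ⟨a, b, ha, hb, hab⟩ := cover_nat P.divisors S V ⟨1, by simp [hP0.ne']⟩ hVS hprime hodd
          w B hw hB hΦ hA1 hs1 z
        refine ⟨fun j => a j * b j, fun j => ?_, hab⟩
        rw [sq]
        exact mul_dvd_mul (Nat.dvd_of_mem_divisors (ha j)) (Nat.dvd_of_mem_divisors (hb j))
  intro n
  induction n with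
  | zero =>
    intro U _ hU N D hG _ _
    have : U = ∅ := by
      rw [← Finset.card_eq_zero]; omega
    subst this
    simpa using hG
  | succ n ih =>
    intro U hUS hU N D hG hdvd hN
    obtain ⟨V, hVU, hVc⟩ := Finset.exists_subset_card_eq (s := U) (n := min K U.card) (min_le_right _ _)
    have h1 := one V (hVU.trans hUS) (by rw [hVc]; exact min_le_left _ _) N D hG hdvd hN
    have hV0 : 0 < ∏ p ∈ V, p := Finset.prod_pos fun q hq => (hprime q (hUS (hVU hq))).pos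
    have h2 := ih (U \ V) (Finset.sdiff_subset.trans hUS) (by
      rw [Finset.card_sdiff_of_subset hVU, hVc]
      rw [Nat.succ_mul] at hU
      rcases le_total K U.card with h | h
      · rw [min_eq_left h]; omega
      · rw [min_eq_right h]; simp) (N * ∏ p ∈ V, p) (D + 4) h1 (Dvd.dvd.mul_right hdvd _)
      (Nat.mul_pos hN hV0)
    have h3 : N * (∏ p ∈ V, p) * (∏ p ∈ U \ V, p) = N * ∏ p ∈ U, p := by
      rw [mul_assoc, mul_comm (∏ p ∈ V, p), Finset.prod_sdiff hVU]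
    rw [h3] at h2
    convert h2 using 1
    ring

end Vale.Agent.Lib.P012
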