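import Mathlib

namespace Vale.Agent.Lib.P012

open Finset

theorem card_divisors_prod (S : Finset ℕ) (hprime : ∀ p ∈ S, p.Prime) :
    (∏ p ∈ S, p).divisors.card = 2 ^ S.card := by
  induction S using Finset.induction_on with
  | empty => simp
  | insert a S ha ih =>
    have h1 := ih (fun p hp => hprime p (Finset.mem_insert_of_mem hp))
    have hpa := hprime a (Finset.mem_insert_self _ _)
    rw [Finset.prod_insert ha, Nat.Coprime.card_divisors_mul, h1, Finset.card_insert_of_notMem ha,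
      hpa.divisors, Finset.card_pair hpa.one_lt.ne, pow_succ, mul_comm]
    refine Nat.Coprime.prod_right fun p hp => ?_
    rw [Nat.coprime_primes hpa (hprime p (Finset.mem_insert_of_mem hp))]
    rintro rfl
    exact ha hp

theorem pi_lower (k : ℕ) (hk : 1 ≤ k) :
    (2 : ℝ) ^ (16 * k) ≤ (16 * k : ℝ) * Nat.primeCounting (2 ^ (16 * k)) + (16 * k + 1) := by
  have h1 := Chebyshev.pi_ge (2 ^ (16 * k))
  have hl2 : 0 < Real.log 2 := Real.log_pos (by norm_num)
  have hk' : (0 : ℝ) < k := by exact_mod_cast hk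
  push_cast at h1
  rw [Real.log_pow] at h1
  push_cast at h1
  have h2 : Real.log ((2 : ℝ) ^ (16 * k) + 1) ≤ (16 * k + 1) * Real.log 2 := by
    have h3 : (2 : ℝ) ^ (16 * k) + 1 ≤ 2 ^ (16 * k + 1) := by
      rw [pow_succ]
      have : (1 : ℝ) ≤ 2 ^ (16 * k) := one_le_pow₀ (by norm_num)
      linarith
    calc Real.log ((2 : ℝ) ^ (16 * k) + 1) ≤ Real.log (2 ^ (16 * k + 1)) :=
          Real.log_le_log (by positivity) h3
      _ = _ := by rw [Real.log_pow]; push_cast; ring
  rw [div_le_iff₀ (by positivity)] at h1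
  have h4 : (2 : ℝ) ^ (16 * k) * Real.log 2 ≤
      ((16 * k : ℝ) * Nat.primeCounting (2 ^ (16 * k)) + (16 * k + 1)) * Real.log 2 := by
    nlinarith
  exact le_of_mul_le_mul_right h4 hl2

theorem two_pow_ge (k : ℕ) (hk : 10 ≤ k) : 48 * k + 10 ≤ 2 ^ k := by
  induction k, hk using Nat.le_induction with
  | base => norm_num
  | succ n hn ih => rw [pow_succ]; omega

theorem pool (k : ℕ) (hk : 10 ≤ k) (X : Finset ℕ) (hX : X.card ≤ 2 ^ k) :
    ∃ S : Finset ℕ, (∀ p ∈ S, p.Prime ∧ 2 ^ (8 * k) ≤ p ∧ p < 2 ^ (16 * k) ∧ p ∉ X) ∧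
      2 ^ (15 * k) + 2 ^ k ≤ S.card := by
  refine ⟨((Finset.range (2 ^ (16 * k))).filter (fun p => p.Prime ∧ 2 ^ (8 * k) ≤ p ∧ p ∉ X)), ?_, ?_⟩
  · intro p hp
    rw [Finset.mem_filter, Finset.mem_range] at hp
    exact ⟨hp.2.1, hp.2.2.1, hp.1, hp.2.2.2⟩
  · set S := ((Finset.range (2 ^ (16 * k))).filter (fun p => p.Prime ∧ 2 ^ (8 * k) ≤ p ∧ p ∉ X))
      with hS
    have h1 : Nat.primeCounting (2 ^ (16 * k)) ≤ S.card + 2 ^ (8 * k) + 2 ^ k + 1 := by
      rw [Nat.primeCounting, Nat.primeCounting', Nat.count_eq_card_filter_range]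
      have hsub : (Finset.range (2 ^ (16 * k) + 1)).filter Nat.Prime ⊆
          ((S ∪ Finset.range (2 ^ (8 * k))) ∪ X) ∪ {2 ^ (16 * k)} := by
        intro p hp
        rw [Finset.mem_filter, Finset.mem_range] at hp
        simp only [hS, Finset.mem_union, Finset.mem_filter, Finset.mem_range, Finset.mem_singleton]
        by_cases h2 : p ∈ X
        · left; right; exact h2
        · by_cases h3 : p = 2 ^ (16 * k)
          · right; exact h3
          · left; left
            by_cases h4 : p < 2 ^ (8 * k)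
            · right; exact h4
            · left
              exact ⟨by omega, hp.2, by omega, h2⟩
      calc _ ≤ (((S ∪ Finset.range (2 ^ (8 * k))) ∪ X) ∪ {2 ^ (16 * k)}).card :=
            Finset.card_le_card hsub
        _ ≤ ((S ∪ Finset.range (2 ^ (8 * k))) ∪ X).card + 1 := by
            refine (Finset.card_union_le _ _).trans ?_
            rw [Finset.card_singleton]
        _ ≤ ((S ∪ Finset.range (2 ^ (8 * k))).card + X.card) + 1 := by
            gcongr
            exact Finset.card_union_le _ _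
        _ ≤ ((S.card + 2 ^ (8 * k)) + X.card) + 1 := by
            gcongr
            refine (Finset.card_union_le _ _).trans ?_
            rw [Finset.card_range]
        _ ≤ _ := by omega
    have h2 := pi_lower k (by omega)
    have h2' : 2 ^ (16 * k) ≤ (16 * k) * Nat.primeCounting (2 ^ (16 * k)) + (16 * k + 1) := by
      exact_mod_cast h2
    by_contra hlt
    push Not at hlt
    have h3 : Nat.primeCounting (2 ^ (16 * k)) ≤ 2 ^ (15 * k) + 2 * 2 ^ k + 2 ^ (8 * k) + 1 := by
      omega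
    have h4 := two_pow_ge k hk
    have h5 : 2 ^ (8 * k) * 2 ^ k ≤ 2 ^ (15 * k) := by
      rw [← pow_add]
      exact Nat.pow_le_pow_right (by norm_num) (by omega)
    have h6 : 2 ^ (16 * k) = 2 ^ (15 * k) * 2 ^ k := by
      rw [← pow_add]; congr 1; ring
    have h7 : (16 * k) * Nat.primeCounting (2 ^ (16 * k)) ≤
        (16 * k) * (2 ^ (15 * k) + 2 * 2 ^ k + 2 ^ (8 * k) + 1) := Nat.mul_le_mul_left _ h3
    have h8 : 2 ^ k ≤ 2 ^ (8 * k) := Nat.pow_le_pow_right (by norm_num) (by omega)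
    have h9 : (48 * k + 10) * 2 ^ (8 * k) ≤ 2 ^ (15 * k) := by
      calc (48 * k + 10) * 2 ^ (8 * k) ≤ 2 ^ k * 2 ^ (8 * k) := Nat.mul_le_mul_right _ h4
        _ = 2 ^ (8 * k) * 2 ^ k := mul_comm _ _
        _ ≤ _ := h5
    have h10 : (48 * k + 10) * 2 ^ (15 * k) ≤ 2 ^ (16 * k) := by
      rw [h6, mul_comm]
      exact Nat.mul_le_mul_left _ h4
    have h11 : 1 ≤ 2 ^ (8 * k) := Nat.one_le_two_pow
    nlinarith

end Vale.Agent.Lib.P012
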