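import Mathlib
import Vale.Agent.Lib.P012.Fourier

namespace Vale.Agent.Lib.P012

open Finset

/-- Greedy choice of `m` elements of the pool keeping a potential small. -/
theorem select {α : Type*} (E : Finset α) (δ : α → ℕ) (pool : Finset ℕ) (J : ℕ)
    (hJ : ∀ e ∈ E, (pool.filter (fun p => p ∣ δ e)).card ≤ J) (w : ℝ) (hw : 0 ≤ w)
    (M : ℕ) (hM : M < pool.card) :
    ∀ m ≤ M, ∃ S ⊆ pool, S.card = m ∧
      ∑ e ∈ E, (1 + w) ^ ((S.filter (fun p => p ∣ δ e)).card) ≤
        E.card * (1 + w * J / ((pool.card : ℝ) - M)) ^ m := by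
  intro m
  induction m with
  | zero =>
    intro _
    exact ⟨∅, by simp, by simp, by simp⟩
  | succ m ih =>
    intro hm
    obtain ⟨S, hS, hcard, hsum⟩ := ih (by omega)
    have hden : (0 : ℝ) < (pool.card : ℝ) - M := by
      have : (M : ℝ) < pool.card := by exact_mod_cast hM
      linarith
    set c : ℝ := 1 + w * J / ((pool.card : ℝ) - M) with hc
    have hne : (pool \ S).Nonempty := by
      rw [← Finset.card_pos, Finset.card_sdiff_of_subset hS]
      omega
    have hcardsd : ((pool \ S).card : ℝ) = (pool.card : ℝ) - m := by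
      rw [Finset.card_sdiff_of_subset hS, hcard, Nat.cast_sub (by omega)]
    set Φ : ℝ := ∑ e ∈ E, (1 + w) ^ ((S.filter (fun p => p ∣ δ e)).card) with hΦ
    have hΦ0 : 0 ≤ Φ := Finset.sum_nonneg fun _ _ => by positivity
    have hstep : ∑ p ∈ pool \ S, ∑ e ∈ E, (1 + w) ^ (((insert p S).filter (fun p => p ∣ δ e)).card)
        ≤ ∑ _p ∈ pool \ S, Φ * c := by
      rw [Finset.sum_comm, Finset.sum_const, nsmul_eq_mul]
      have h1 : ∀ e ∈ E, ∑ p ∈ pool \ S,
          (1 + w) ^ (((insert p S).filter (fun p => p ∣ δ e)).card) ≤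
          (1 + w) ^ ((S.filter (fun p => p ∣ δ e)).card) * (((pool \ S).card : ℝ) + w * J) := by
        intro e he
        have h2 : ∀ p ∈ pool \ S, (1 + w) ^ (((insert p S).filter (fun p => p ∣ δ e)).card) =
            (1 + w) ^ ((S.filter (fun p => p ∣ δ e)).card) * (1 + if p ∣ δ e then w else 0) := by
          intro p hp
          have hpS : p ∉ S := (Finset.mem_sdiff.1 hp).2
          rw [Finset.filter_insert]
          by_cases hd : p ∣ δ e
          · rw [if_pos hd, if_pos hd, Finset.card_insert_of_notMem, pow_succ]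
            intro hmem
            exact hpS (Finset.mem_filter.1 hmem).1
          · rw [if_neg hd, if_neg hd, add_zero, mul_one]
        rw [Finset.sum_congr rfl h2, ← Finset.mul_sum]
        gcongr
        rw [Finset.sum_add_distrib, Finset.sum_const, nsmul_eq_mul, mul_one, ← Finset.sum_filter,
          Finset.sum_const, nsmul_eq_mul]
        have h3 : (((pool \ S).filter (fun p => p ∣ δ e)).card : ℝ) ≤ J := by
          have : ((pool \ S).filter (fun p => p ∣ δ e)).card ≤
              (pool.filter (fun p => p ∣ δ e)).card :=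
            Finset.card_le_card (Finset.filter_subset_filter _ Finset.sdiff_subset)
          exact_mod_cast this.trans (hJ e he)
        nlinarith
      calc ∑ e ∈ E, ∑ p ∈ pool \ S, (1 + w) ^ (((insert p S).filter (fun p => p ∣ δ e)).card)
          ≤ ∑ e ∈ E, (1 + w) ^ ((S.filter (fun p => p ∣ δ e)).card) *
            (((pool \ S).card : ℝ) + w * J) := Finset.sum_le_sum h1
        _ = Φ * (((pool \ S).card : ℝ) + w * J) := by rw [← Finset.sum_mul]
        _ ≤ ((pool \ S).card : ℝ) * (Φ * c) := by
            rw [hcardsd, hc]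
            have h4 : w * J ≤ ((pool.card : ℝ) - m) * (w * J / ((pool.card : ℝ) - M)) := by
              have h5 : (pool.card : ℝ) - M ≤ (pool.card : ℝ) - m := by
                have : (m : ℝ) ≤ M := by exact_mod_cast (by omega : m ≤ M)
                linarith
              calc w * J = ((pool.card : ℝ) - M) * (w * J / ((pool.card : ℝ) - M)) := by
                    field_simp
                _ ≤ _ := by
                    apply mul_le_mul_of_nonneg_right h5
                    positivity
            nlinarith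
    obtain ⟨p, hp, hple⟩ := Finset.exists_le_of_sum_le hne hstep
    refine ⟨insert p S, ?_, ?_, ?_⟩
    · exact Finset.insert_subset (Finset.mem_sdiff.1 hp).1 hS
    · rw [Finset.card_insert_of_notMem (Finset.mem_sdiff.1 hp).2, hcard]
    · refine hple.trans ?_
      rw [pow_succ, ← mul_assoc]
      have hc0 : 0 ≤ c := by positivity
      exact mul_le_mul_of_nonneg_right hsum hc0

/-- symmetric difference of two naturals. -/
def df (p : ℕ × ℕ) : ℕ := (p.1 - p.2) + (p.2 - p.1)

theorem df_dvd_iff (n : ℕ) (p : ℕ × ℕ) : n ∣ df p ↔ (p.1 : ZMod n) = (p.2 : ZMod n) := by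
  unfold df
  rcases le_total p.1 p.2 with h | h
  · rw [Nat.sub_eq_zero_of_le h, zero_add, ← Nat.modEq_iff_dvd' h,
      ← ZMod.natCast_eq_natCast_iff]
  · rw [Nat.sub_eq_zero_of_le h, add_zero, ← Nat.modEq_iff_dvd' h,
      ← ZMod.natCast_eq_natCast_iff]
    exact eq_comm

theorem coll_le (A S' S : Finset ℕ) (hS' : S' ⊆ S) (w : ℝ) (hw : 1 ≤ w)
    (hΦ : ∑ e ∈ A.offDiag, (1 + w) ^ ((S.filter (fun p => p ∣ df e)).card) ≤
      3 * (A.card : ℝ) ^ 2) (hA : w ^ S'.card ≤ (A.card : ℝ)) (T : Finset {x // x ∈ S'}) :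
    (coll (fun i : {x // x ∈ S'} => (i : ℕ)) A T : ℝ) ≤ (A.card : ℝ) ^ 2 * (4 / w) ^ T.card := by
  have hw0 : 0 < w := by linarith
  rcases T.eq_empty_or_nonempty with rfl | hT
  · simp [coll, Finset.card_product, sq]
  · have hT1 : 1 ≤ T.card := hT.card_pos
    have hTS : T.card ≤ S'.card := by
      have := Finset.card_le_univ T
      simpa using this
    -- off diagonal count
    set X := A.offDiag.filter (fun p => ∀ i ∈ T, (p.1 : ZMod (i : ℕ)) = (p.2 : ZMod (i : ℕ)))
      with hX
    have h1 : coll (fun i : {x // x ∈ S'} => (i : ℕ)) A T ≤ A.card + X.card := by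
      unfold coll
      have hsub : ((A ×ˢ A).filter (fun p => ∀ i ∈ T, (p.1 : ZMod (i : ℕ)) =
          (p.2 : ZMod (i : ℕ)))) ⊆ A.diag ∪ X := by
        intro p hp
        rw [Finset.mem_filter, Finset.mem_product] at hp
        rw [Finset.mem_union]
        by_cases hd : p.1 = p.2
        · left; rw [Finset.mem_diag]; exact ⟨hp.1.1, hd⟩
        · right
          rw [hX, Finset.mem_filter, Finset.mem_offDiag]
          exact ⟨⟨hp.1.1, hp.1.2, hd⟩, hp.2⟩
      calc _ ≤ (A.diag ∪ X).card := Finset.card_le_card hsub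
        _ ≤ A.diag.card + X.card := Finset.card_union_le _ _
        _ = _ := by rw [Finset.diag_card]
    have h2 : (X.card : ℝ) * (1 + w) ^ T.card ≤ 3 * (A.card : ℝ) ^ 2 := by
      refine le_trans ?_ hΦ
      calc (X.card : ℝ) * (1 + w) ^ T.card = ∑ _e ∈ X, (1 + w) ^ T.card := by
            rw [Finset.sum_const, nsmul_eq_mul]
        _ ≤ ∑ e ∈ X, (1 + w) ^ ((S.filter (fun p => p ∣ df e)).card) := by
            refine Finset.sum_le_sum fun e he => ?_
            apply pow_le_pow_right₀ (by linarith)
            have hmap : T.map ⟨Subtype.val, Subtype.val_injective⟩ ⊆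
                S.filter (fun p => p ∣ df e) := by
              intro n hn
              rw [Finset.mem_map] at hn
              obtain ⟨i, hi, rfl⟩ := hn
              rw [Finset.mem_filter]
              refine ⟨hS' i.2, ?_⟩
              rw [df_dvd_iff]
              exact (Finset.mem_filter.1 he).2 i hi
            have := Finset.card_le_card hmap
            rwa [Finset.card_map] at this
        _ ≤ ∑ e ∈ A.offDiag, (1 + w) ^ ((S.filter (fun p => p ∣ df e)).card) := by
            apply Finset.sum_le_sum_of_subset_of_nonneg (Finset.filter_subset _ _)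
            intro _ _ _
            positivity
    have hwT : 0 < w ^ T.card := by positivity
    have h3 : (X.card : ℝ) * w ^ T.card ≤ 3 * (A.card : ℝ) ^ 2 := by
      refine le_trans ?_ h2
      gcongr
      linarith
    have h4 : (A.card : ℝ) * w ^ T.card ≤ (A.card : ℝ) ^ 2 := by
      have h5 : w ^ T.card ≤ A.card := (pow_le_pow_right₀ hw hTS).trans hA
      rw [sq]
      gcongr
    have h6 : (4 : ℝ) ≤ 4 ^ T.card := by
      calc (4 : ℝ) = 4 ^ 1 := by norm_num
        _ ≤ 4 ^ T.card := pow_le_pow_right₀ (by norm_num) hT1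
    rw [div_pow, ← mul_div_assoc, le_div_iff₀ hwT]
    calc (coll (fun i : {x // x ∈ S'} => (i : ℕ)) A T : ℝ) * w ^ T.card
        ≤ ((A.card : ℝ) + X.card) * w ^ T.card := by
          gcongr
          exact_mod_cast h1
      _ ≤ 4 * (A.card : ℝ) ^ 2 := by nlinarith
      _ ≤ (A.card : ℝ) ^ 2 * 4 ^ T.card := by nlinarith [sq_nonneg (A.card : ℝ)]

end Vale.Agent.Lib.P012
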