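import Vale.Agent.Lib.P012.Level
import Vale.Agent.Lib.P012.Pool

namespace Vale.Agent.Lib.P012

open Finset

theorem df_ne_zero {p : ℕ × ℕ} (h : p.1 ≠ p.2) : df p ≠ 0 := by
  unfold df; omega

theorem df_le {p : ℕ × ℕ} {m : ℕ} (h1 : p.1 ≤ m) (h2 : p.2 ≤ m) : df p ≤ m := by
  unfold df; omega

/-- Few large primes divide a bounded nonzero number. -/
theorem few_primes (pool : Finset ℕ) (t n c : ℕ) (hpool : ∀ p ∈ pool, p.Prime ∧ 2 ^ t ≤ p) (hn : n ≠ 0)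
    (hnlt : n ≤ 2 ^ (t * c)) (ht : 0 < t) : (pool.filter (· ∣ n)).card ≤ c := by
  have h1 : ∏ p ∈ pool.filter (· ∣ n), p ∣ n :=
    Finset.prod_primes_dvd _ (fun p hp => ((hpool p (Finset.mem_filter.1 hp).1).1).prime)
      (fun p hp => (Finset.mem_filter.1 hp).2)
  have h2 := Nat.le_of_dvd (Nat.pos_of_ne_zero hn) h1
  have h3 : (2 ^ t) ^ (pool.filter (· ∣ n)).card ≤ ∏ p ∈ pool.filter (· ∣ n), p := by
    rw [← Finset.prod_const]
    exact Finset.prod_le_prod' fun p hp => (hpool p (Finset.mem_filter.1 hp).1).2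
  have h4 : 2 ^ (t * (pool.filter (· ∣ n)).card) ≤ 2 ^ (t * c) := by
    rw [pow_mul]; exact h3.trans (h2.trans hnlt)
  have h5 := (Nat.pow_le_pow_iff_right (by norm_num : 1 < 2)).1 h4
  exact Nat.le_of_mul_le_mul_left h5 ht

/-- The data carried along the levels. -/
def Lvl (i N D : ℕ) : Prop :=
  0 < N ∧ Good N D ∧ ∃ S : Finset ℕ, S.card = 2 ^ i ∧
    (∀ p ∈ S, p.Prime ∧ p ≠ 2 ∧ p < 2 ^ (16 * (i + 1))) ∧ 16 * (∏ p ∈ S, p) ^ 2 ∣ N

theorem two_pow_ge' (i : ℕ) (hi : 9 ≤ i) : 52 * (i + 2) ≤ 2 * 2 ^ i := by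
  induction i, hi using Nat.le_induction with
  | base => norm_num
  | succ n hn ih => rw [pow_succ]; omega

theorem groups_bound (i : ℕ) (hi : 9 ≤ i) :
    2 ^ (i + 1) ≤ (52 * (i + 2)) * (2 ^ i / (13 * (i + 2))) := by
  have h1 := two_pow_ge' i hi
  have h2 := Nat.div_add_mod (2 ^ i) (13 * (i + 2))
  have h3 := Nat.mod_lt (2 ^ i) (show 0 < 13 * (i + 2) by omega)
  have h4 : (52 * (i + 2)) * (2 ^ i / (13 * (i + 2))) = 4 * (13 * (i + 2) * (2 ^ i / (13 * (i + 2)))) := by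
    ring
  rw [h4, pow_succ]
  omega

theorem small_pow (i : ℕ) (hi : 9 ≤ i) :
    (1 + ((2 : ℝ) ^ (16 * (i + 2))) ^ 3 * (4 / (2 : ℝ) ^ (13 * (i + 2))) ^ 4) ^
      (2 ^ i / (13 * (i + 2)) : ℕ) < 2 := by
  set K := 2 ^ i / (13 * (i + 2)) with hK
  have hKle : (K : ℝ) ≤ 2 ^ i := by
    have : K ≤ 2 ^ i := Nat.div_le_self _ _
    exact_mod_cast this
  have hx : ((2 : ℝ) ^ (16 * (i + 2))) ^ 3 * (4 / (2 : ℝ) ^ (13 * (i + 2))) ^ 4 =
      1 / 2 ^ (4 * i) := by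
    rw [show (4 : ℝ) = 2 ^ 2 by norm_num, div_pow, ← pow_mul, ← pow_mul, ← pow_mul,
      mul_div_assoc', ← pow_add, div_eq_div_iff (by positivity) (by positivity), one_mul, ← pow_add]
    congr 1
    ring
  rw [hx]
  have h1 : (1 + 1 / (2 : ℝ) ^ (4 * i)) ^ K ≤ Real.exp (1 / 2 ^ (4 * i)) ^ K := by
    apply pow_le_pow_left₀ (by positivity)
    rw [add_comm]
    exact Real.add_one_le_exp _
  refine lt_of_le_of_lt h1 ?_
  rw [← Real.exp_nat_mul]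
  have h2 : (K : ℝ) * (1 / 2 ^ (4 * i)) ≤ 1 / 2 := by
    have h3 : (2 : ℝ) ^ i * (1 / 2 ^ (4 * i)) = 1 / 2 ^ (3 * i) := by
      rw [mul_one_div, div_eq_div_iff (by positivity) (by positivity), one_mul, ← pow_add]
      congr 1
      ring
    have h4 : (2 : ℝ) ^ 1 ≤ 2 ^ (3 * i) := pow_le_pow_right₀ (by norm_num) (by omega)
    calc (K : ℝ) * (1 / 2 ^ (4 * i)) ≤ 2 ^ i * (1 / 2 ^ (4 * i)) := by gcongr
      _ = 1 / 2 ^ (3 * i) := h3
      _ ≤ 1 / 2 ^ 1 := one_div_le_one_div_of_le (by norm_num) h4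
      _ = 1 / 2 := by norm_num
  refine lt_of_le_of_lt (Real.exp_le_exp.2 h2) ?_
  have h5 : Real.exp (1 / 2) ^ 2 < 2 ^ 2 := by
    rw [← Real.exp_nat_mul]
    norm_num
    linarith [Real.exp_one_lt_three]
  exact lt_of_pow_lt_pow_left₀ 2 (by norm_num) h5

theorem step (i N D : ℕ) (hi : 9 ≤ i) (h : Lvl i N D) :
    ∃ N', Lvl (i + 1) N' (D + 416 * (i + 2)) := by
  obtain ⟨hN, hG, S, hScard, hS, hdvd⟩ := h
  set P := ∏ p ∈ S, p with hP
  have hPpos : 0 < P := Finset.prod_pos fun p hp => (hS p hp).1.pos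
  have hPodd : Odd P := by
    rw [hP, ← Nat.not_even_iff_odd, even_iff_two_dvd]
    intro h2
    obtain ⟨p, hp, h2p⟩ := (Nat.prime_two.prime.dvd_finsetProd_iff _).1 h2
    exact (hS p hp).2.1 ((Nat.prime_dvd_prime_iff_eq Nat.prime_two (hS p hp).1).1 h2p).symm
  have hPle : P ≤ 2 ^ (16 * (i + 1) * 2 ^ i) := by
    rw [pow_mul, ← hScard, ← Finset.prod_const]
    exact Finset.prod_le_prod' fun p hp => (hS p hp).2.2.le
  have hdivcard : P.divisors.card = 2 ^ (2 ^ i) := by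
    rw [hP, card_divisors_prod S fun p hp => (hS p hp).1, hScard]
  -- the pool
  have hXc : S.card ≤ 2 ^ (i + 2) := by
    rw [hScard]; exact Nat.pow_le_pow_right (by norm_num) (by omega)
  obtain ⟨pl, hpl, hplc⟩ := pool (i + 2) (by omega) S hXc
  have hJ : ∀ e ∈ P.divisors.offDiag, (pl.filter (· ∣ df e)).card ≤ 2 ^ (i + 1) := by
    intro e he
    rw [Finset.mem_offDiag] at he
    have he1 : e.1 ≤ P := Nat.divisor_le he.1
    have he2 : e.2 ≤ P := Nat.divisor_le he.2.1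
    refine few_primes pl (8 * (i + 2)) (df e) _ (fun p hp => ⟨(hpl p hp).1, (hpl p hp).2.1⟩)
      (df_ne_zero he.2.2) ((df_le he1 he2).trans (hPle.trans ?_)) (by omega)
    apply Nat.pow_le_pow_right (by norm_num)
    rw [pow_succ]
    nlinarith [Nat.zero_le (2 ^ i)]
  have hMlt : 2 ^ (i + 1) < pl.card := by
    have h1 : 2 ^ (i + 1) < 2 ^ (i + 2) := Nat.pow_lt_pow_right (by norm_num) (by omega)
    have h2 : 0 < 2 ^ (15 * (i + 2)) := by positivity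
    omega
  obtain ⟨S', hS'pl, hS'card, hΦ⟩ := select P.divisors.offDiag df pl (2 ^ (i + 1)) hJ
    ((2 : ℝ) ^ (13 * (i + 2))) (by positivity) (2 ^ (i + 1)) hMlt (2 ^ (i + 1)) le_rfl
  have hΦ' : ∑ e ∈ P.divisors.offDiag,
      (1 + (2 : ℝ) ^ (13 * (i + 2))) ^ ((S'.filter (fun p => p ∣ df e)).card) ≤
      3 * (P.divisors.card : ℝ) ^ 2 := by
    refine hΦ.trans ?_
    have hE : (P.divisors.offDiag.card : ℝ) ≤ (P.divisors.card : ℝ) ^ 2 := by
      have : P.divisors.offDiag.card ≤ P.divisors.card ^ 2 := by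
        rw [Finset.offDiag_card, sq]; omega
      exact_mod_cast this
    have hden : (2 : ℝ) ^ (15 * (i + 2)) ≤ (pl.card : ℝ) - ((2 ^ (i + 1) : ℕ) : ℝ) := by
      have h1 : 2 ^ (15 * (i + 2)) + 2 ^ (i + 1) ≤ pl.card := by
        have : 2 ^ (i + 1) ≤ 2 ^ (i + 2) := Nat.pow_le_pow_right (by norm_num) (by omega)
        omega
      have h2 : ((2 ^ (15 * (i + 2)) + 2 ^ (i + 1) : ℕ) : ℝ) ≤ (pl.card : ℝ) := by
        exact_mod_cast h1
      push_cast at h2 ⊢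
      linarith
    have hq0 : 0 ≤ (2 : ℝ) ^ (13 * (i + 2)) * ((2 ^ (i + 1) : ℕ) : ℝ) /
      ((pl.card : ℝ) - ((2 ^ (i + 1) : ℕ) : ℝ)) := by
      apply div_nonneg (by positivity)
      exact le_trans (by positivity) hden
    have hfac : (1 + (2 : ℝ) ^ (13 * (i + 2)) * ((2 ^ (i + 1) : ℕ) : ℝ) /
        ((pl.card : ℝ) - ((2 ^ (i + 1) : ℕ) : ℝ))) ^ (2 ^ (i + 1)) ≤ 3 := by
      have hq : (2 : ℝ) ^ (13 * (i + 2)) * ((2 ^ (i + 1) : ℕ) : ℝ) /
        ((pl.card : ℝ) - ((2 ^ (i + 1) : ℕ) : ℝ)) ≤ 1 / 2 ^ (i + 1) := by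
        have h3 : (0 : ℝ) < 2 ^ (15 * (i + 2)) := by positivity
        calc (2 : ℝ) ^ (13 * (i + 2)) * ((2 ^ (i + 1) : ℕ) : ℝ) /
            ((pl.card : ℝ) - ((2 ^ (i + 1) : ℕ) : ℝ))
            ≤ (2 : ℝ) ^ (13 * (i + 2)) * ((2 ^ (i + 1) : ℕ) : ℝ) / 2 ^ (15 * (i + 2)) := by
              gcongr
          _ ≤ 1 / 2 ^ (i + 1) := by
              rw [div_le_div_iff₀ (by positivity) (by positivity)]
              push_cast
              rw [one_mul, ← pow_add, ← pow_add]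
              apply pow_le_pow_right₀ (by norm_num)
              omega
      calc (1 + (2 : ℝ) ^ (13 * (i + 2)) * ((2 ^ (i + 1) : ℕ) : ℝ) /
            ((pl.card : ℝ) - ((2 ^ (i + 1) : ℕ) : ℝ))) ^ (2 ^ (i + 1))
          ≤ (1 + 1 / (2 : ℝ) ^ (i + 1)) ^ (2 ^ (i + 1)) := by gcongr
        _ ≤ (Real.exp (1 / 2 ^ (i + 1))) ^ (2 ^ (i + 1)) := by
            apply pow_le_pow_left₀ (by positivity)
            rw [add_comm]
            exact Real.add_one_le_exp _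
        _ = Real.exp 1 := by
            rw [← Real.exp_nat_mul]
            congr 1
            push_cast
            field_simp
        _ ≤ 3 := Real.exp_one_lt_three.le
    calc (P.divisors.offDiag.card : ℝ) * (1 + (2 : ℝ) ^ (13 * (i + 2)) * ((2 ^ (i + 1) : ℕ) : ℝ) /
        ((pl.card : ℝ) - ((2 ^ (i + 1) : ℕ) : ℝ))) ^ (2 ^ (i + 1))
        ≤ (P.divisors.card : ℝ) ^ 2 * 3 :=
          mul_le_mul hE hfac (pow_nonneg (by linarith) _) (by positivity)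
      _ = _ := by ring
  have hprime' : ∀ p ∈ S', p.Prime := fun p hp => (hpl p (hS'pl hp)).1
  have hge' : ∀ p ∈ S', 2 ^ (8 * (i + 2)) ≤ p := fun p hp => (hpl p (hS'pl hp)).2.1
  have hlt' : ∀ p ∈ S', p < 2 ^ (16 * (i + 2)) := fun p hp => (hpl p (hS'pl hp)).2.2.1
  have hodd' : ∀ p ∈ S', p ≠ 2 := by
    intro p hp h2
    have h3 := hge' p hp
    have h4 : 2 ^ 2 ≤ 2 ^ (8 * (i + 2)) := Nat.pow_le_pow_right (by norm_num) (by omega)
    omega
  have hSP' : ∀ p ∈ S', ¬ p ∣ P := by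
    intro p hp hdp
    obtain ⟨r, hr, hpr⟩ := ((hprime' p hp).prime.dvd_finsetProd_iff _).1 hdp
    have h5 := (Nat.prime_dvd_prime_iff_eq (hprime' p hp) (hS r hr).1).1 hpr
    exact (hpl p (hS'pl hp)).2.2.2 (h5 ▸ hr)
  have hwK : ((2 : ℝ) ^ (13 * (i + 2))) ^ (2 ^ i / (13 * (i + 2))) ≤ (P.divisors.card : ℝ) := by
    rw [hdivcard, ← pow_mul]
    push_cast
    apply pow_le_pow_right₀ (by norm_num)
    exact Nat.mul_div_le _ _
  have ext := extend_groups P hPodd S' hprime' hodd' hSP' ((2 : ℝ) ^ (13 * (i + 2)))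
    ((2 : ℝ) ^ (16 * (i + 2))) (one_le_pow₀ (by norm_num)) (by positivity)
    (fun p hp => by exact_mod_cast (hlt' p hp).le) hΦ' (2 ^ i / (13 * (i + 2))) hwK
    (small_pow i hi) (52 * (i + 2)) S' (Finset.Subset.refl _)
    (by rw [hS'card]; exact groups_bound i hi)
  have g1 := ext N D hG hdvd hN
  have hP'pos : 0 < ∏ p ∈ S', p := Finset.prod_pos fun p hp => (hprime' p hp).pos
  have g2 := ext (N * ∏ p ∈ S', p) (D + 4 * (52 * (i + 2))) g1 (Dvd.dvd.mul_right hdvd _)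
    (Nat.mul_pos hN hP'pos)
  refine ⟨N * (∏ p ∈ S', p) * (∏ p ∈ S', p), Nat.mul_pos (Nat.mul_pos hN hP'pos) hP'pos, ?_, S',
    hS'card, fun p hp => ⟨hprime' p hp, hodd' p hp, hlt' p hp⟩, ?_⟩
  · convert g2 using 1
    ring
  · rw [sq, mul_assoc N, ]
    exact mul_dvd_mul ((Dvd.intro _ rfl).trans hdvd) (dvd_refl _)

theorem base : ∃ N D, Lvl 9 N D := by
  obtain ⟨pl, hpl, hplc⟩ := pool 10 le_rfl ∅ (by simp)
  obtain ⟨S, hSpl, hScard⟩ := Finset.exists_subset_card_eq (s := pl) (n := 2 ^ 9) (by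
    refine le_trans ?_ hplc
    have : 2 ^ 9 ≤ 2 ^ (15 * 10) := Nat.pow_le_pow_right (by norm_num) (by norm_num)
    omega)
  have hS : ∀ p ∈ S, p.Prime ∧ p ≠ 2 ∧ p < 2 ^ (16 * (9 + 1)) := by
    intro p hp
    have h1 := hpl p (hSpl hp)
    refine ⟨h1.1, ?_, h1.2.2.1⟩
    intro h2
    have h3 := h1.2.1
    have h4 : 2 ^ 2 ≤ 2 ^ (8 * 10) := Nat.pow_le_pow_right (by norm_num) (by norm_num)
    omega
  set P := ∏ p ∈ S, p with hP
  have hPodd : Odd P := by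
    rw [hP, ← Nat.not_even_iff_odd, even_iff_two_dvd]
    intro h2
    obtain ⟨p, hp, h2p⟩ := (Nat.prime_two.prime.dvd_finsetProd_iff _).1 h2
    exact (hS p hp).2.1 ((Nat.prime_dvd_prime_iff_eq Nat.prime_two (hS p hp).1).1 h2p).symm
  have hP1 : 1 < P := by
    have hne : S.Nonempty := by
      rw [← Finset.card_pos, hScard]; positivity
    obtain ⟨p, hp⟩ := hne
    have h1 : p ∣ P := Finset.dvd_prod_of_mem _ hp
    exact lt_of_lt_of_le (hS p hp).1.one_lt (Nat.le_of_dvd hPodd.pos h1)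
  set L := P ^ 2 + 4 with hL
  have hle : P ^ 2 ≤ 2 ^ L := by
    calc P ^ 2 ≤ 2 ^ (P ^ 2) := Nat.lt_two_pow_self.le
      _ ≤ 2 ^ L := Nat.pow_le_pow_right (by norm_num) (by omega)
  have hP2 : 1 < P ^ 2 := by nlinarith
  refine ⟨2 ^ L * P ^ 2, 2 * (L + 1), by positivity, good_base hPodd.pow hle hP2, S, hScard, hS, ?_⟩
  have : (16 : ℕ) ∣ 2 ^ L := by
    rw [show (16 : ℕ) = 2 ^ 4 by norm_num]
    exact pow_dvd_pow 2 (by omega)
  exact mul_dvd_mul this (dvd_refl _)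

theorem levels : ∃ D₀ : ℕ, ∀ n : ℕ, ∃ N D, Lvl (n + 9) N D ∧ D ≤ D₀ + 416 * (n * (n + 11)) := by
  obtain ⟨N₀, D₀, h0⟩ := base
  refine ⟨D₀, fun n => ?_⟩
  induction n with
  | zero => exact ⟨N₀, D₀, by simpa using h0, by simp⟩
  | succ n ih =>
    obtain ⟨N, D, hL, hD⟩ := ih
    obtain ⟨N', hN'⟩ := step (n + 9) N D (by omega) hL
    refine ⟨N', D + 416 * (n + 9 + 2), by rw [show n + 1 + 9 = n + 9 + 1 by ring]; exact hN', ?_⟩
    nlinarith

theorem lvl_large {i N D : ℕ} (h : Lvl i N D) : 2 ^ (2 ^ i) ≤ N := by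
  obtain ⟨hN, _, S, hScard, hS, hdvd⟩ := h
  have h1 : 2 ^ (2 ^ i) ≤ ∏ p ∈ S, p := by
    rw [← hScard, ← Finset.prod_const]
    exact Finset.prod_le_prod' fun p hp => (hS p hp).1.two_le
  have h2 : (∏ p ∈ S, p) ∣ N := by
    refine Dvd.dvd.trans ?_ hdvd
    rw [sq]
    exact Dvd.dvd.mul_left (Dvd.intro _ rfl) _
  exact h1.trans (Nat.le_of_dvd hN h2)

end Vale.Agent.Lib.P012
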